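import Mathlib

/-!
# P060: closure properties of the class of graphs satisfying Hadwiger's conjecture
-/

set_option autoImplicit false

namespace Vale.Agent.P060

/-- `G` has a complete minor on `t` vertices: `t` pairwise disjoint, pairwise adjacent, connected
branch sets -/
def HasMinor {V : Type} (G : SimpleGraph V) (t : ℕ) : Prop :=
  ∃ B : Fin t → Set V, (∀ i, (G.induce (B i)).Connected) ∧
    (∀ i j, i ≠ j → Disjoint (B i) (B j)) ∧
    ∀ i j, i ≠ j → ∃ x ∈ B i, ∃ y ∈ B j, G.Adj x y

/-- `G` satisfies Hadwiger's conjecture: its chromatic number is at most its Hadwiger number -/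
def Hadwiger {V : Type} (G : SimpleGraph V) : Prop :=
  ∀ k : ℕ, ¬ G.Colorable k → HasMinor G (k + 1)

/-- strong product -/
def strong {V W : Type} (G : SimpleGraph V) (H : SimpleGraph W) : SimpleGraph (V × W) where
  Adj p q := p ≠ q ∧ (p.1 = q.1 ∨ G.Adj p.1 q.1) ∧ (p.2 = q.2 ∨ H.Adj p.2 q.2)
  symm := ⟨by
    rintro p q ⟨h1, h2, h3⟩
    exact ⟨h1.symm, h2.imp Eq.symm fun h => h.symm, h3.imp Eq.symm fun h => h.symm⟩⟩
  loopless := ⟨fun p h => h.1 rfl⟩

/-- lexicographic product -/
def lexi {V W : Type} (G : SimpleGraph V) (H : SimpleGraph W) : SimpleGraph (V × W) where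
  Adj p q := G.Adj p.1 q.1 ∨ (p.1 = q.1 ∧ H.Adj p.2 q.2)
  symm := ⟨by
    rintro p q (h | ⟨h1, h2⟩)
    · exact Or.inl h.symm
    · exact Or.inr ⟨h1.symm, h2.symm⟩⟩
  loopless := ⟨by
    rintro p (h | ⟨-, h⟩)
    · exact G.loopless.irrefl _ h
    · exact H.loopless.irrefl _ h⟩

/-- join: all edges between the two graphs -/
def joinG {V W : Type} (G : SimpleGraph V) (H : SimpleGraph W) : SimpleGraph (V ⊕ W) where
  Adj p q := match p, q with
    | Sum.inl a, Sum.inl b => G.Adj a b
    | Sum.inr a, Sum.inr b => H.Adj a b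
    | _, _ => True
  symm := ⟨by
    rintro (a | a) (b | b) h
    · exact h.symm
    · trivial
    · trivial
    · exact h.symm⟩
  loopless := ⟨by
    rintro (a | a) h
    · exact G.loopless.irrefl _ h
    · exact H.loopless.irrefl _ h⟩

/-- Mycielskian: `some (inl v)` the vertices of `G`, `some (inr v)` their copies, `none` the apex
of the copies -/
def myc {V : Type} (G : SimpleGraph V) : SimpleGraph (Option (V ⊕ V)) where
  Adj p q := match p, q with
    | some (Sum.inl a), some (Sum.inl b) => G.Adj a b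
    | some (Sum.inl a), some (Sum.inr b) => G.Adj a b
    | some (Sum.inr a), some (Sum.inl b) => G.Adj a b
    | some (Sum.inr _), none => True
    | none, some (Sum.inr _) => True
    | _, _ => False
  symm := ⟨by
    rintro (_ | a | a) (_ | b | b) h
    · exact h
    · exact h
    · trivial
    · exact h
    · exact h.symm
    · exact h.symm
    · trivial
    · exact h.symm
    · exact h⟩
  loopless := ⟨by
    rintro (_ | a | a) h
    · exact h
    · exact G.loopless.irrefl _ h
    · exact h⟩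

section
variable {V W : Type}

theorem minor_anti {G : SimpleGraph V} {s t : ℕ} (h : s ≤ t) (ht : HasMinor G t) :
    HasMinor G s := by
  obtain ⟨B, h1, h2, h3⟩ := ht
  have hinj : ∀ i j : Fin s, i ≠ j → Fin.castLE h i ≠ Fin.castLE h j := fun i j hij hh =>
    hij (Fin.castLE_injective h hh)
  exact ⟨fun i => B (Fin.castLE h i), fun i => h1 _, fun i j hij => h2 _ _ (hinj i j hij),
    fun i j hij => h3 _ _ (hinj i j hij)⟩

theorem minor_mono {G K : SimpleGraph V} (hGK : G ≤ K) {t : ℕ} (h : HasMinor G t) :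
    HasMinor K t := by
  obtain ⟨B, h1, h2, h3⟩ := h
  refine ⟨B, fun i => ?_, h2, fun i j hij => ?_⟩
  · exact (h1 i).mono (fun x y hxy => hGK hxy)
  · obtain ⟨x, hx, y, hy, hxy⟩ := h3 i j hij
    exact ⟨x, hx, y, hy, hGK hxy⟩

/-- products of connected sets are connected in the strong product -/
theorem conn_prod (G : SimpleGraph V) (H : SimpleGraph W) (A : Set V) (B : Set W)
    (hA : (G.induce A).Connected) (hB : (H.induce B).Connected) :
    ((strong G H).induce (A ×ˢ B)).Connected := by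
  have r1 : ∀ (b : B) (x y : A), (G.induce A).Reachable x y →
      ((strong G H).induce (A ×ˢ B)).Reachable ⟨(x, b), x.2, b.2⟩ ⟨(y, b), y.2, b.2⟩ := by
    intro b x y h
    let φ : (G.induce A) →g ((strong G H).induce (A ×ˢ B)) :=
      { toFun := fun x => ⟨(x.1, b.1), x.2, b.2⟩
        map_rel' := by
          intro x y hxy
          have hxy : G.Adj x.1 y.1 := hxy
          show (strong G H).Adj (x.1, b.1) (y.1, b.1)
          refine ⟨fun h => hxy.ne (congrArg Prod.fst h), Or.inr hxy, Or.inl rfl⟩ }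
    exact h.map φ
  have r2 : ∀ (a : A) (x y : B), (H.induce B).Reachable x y →
      ((strong G H).induce (A ×ˢ B)).Reachable ⟨(a, x), a.2, x.2⟩ ⟨(a, y), a.2, y.2⟩ := by
    intro a x y h
    let φ : (H.induce B) →g ((strong G H).induce (A ×ˢ B)) :=
      { toFun := fun x => ⟨(a.1, x.1), a.2, x.2⟩
        map_rel' := by
          intro x y hxy
          have hxy : H.Adj x.1 y.1 := hxy
          show (strong G H).Adj (a.1, x.1) (a.1, y.1)
          refine ⟨fun h => hxy.ne (congrArg Prod.snd h), Or.inl rfl, Or.inr hxy⟩ }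
    exact h.map φ
  obtain ⟨a0⟩ := hA.nonempty
  obtain ⟨b0⟩ := hB.nonempty
  haveI : Nonempty ↥(A ×ˢ B) := ⟨⟨(a0.1, b0.1), a0.2, b0.2⟩⟩
  refine SimpleGraph.Connected.mk ?_
  rintro ⟨⟨a, b⟩, ha, hb⟩ ⟨⟨a', b'⟩, ha', hb'⟩
  exact (r1 ⟨b, hb⟩ ⟨a, ha⟩ ⟨a', ha'⟩ (hA.preconnected _ _)).trans
    (r2 ⟨a', ha'⟩ ⟨b, hb⟩ ⟨b', hb'⟩ (hB.preconnected _ _))

theorem minor_strong (G : SimpleGraph V) (H : SimpleGraph W) {s t : ℕ} (hG : HasMinor G s)
    (hH : HasMinor H t) : HasMinor (strong G H) (s * t) := by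
  obtain ⟨A, a1, a2, a3⟩ := hG
  obtain ⟨B, b1, b2, b3⟩ := hH
  refine ⟨fun u => (A (finProdFinEquiv.symm u).1) ×ˢ (B (finProdFinEquiv.symm u).2),
    fun u => conn_prod G H _ _ (a1 _) (b1 _), fun u v huv => ?_, fun u v huv => ?_⟩
  · rw [Set.disjoint_left]
    rintro ⟨x, y⟩ ⟨h1, h2⟩ ⟨h3, h4⟩
    have e1 : (finProdFinEquiv.symm u).1 = (finProdFinEquiv.symm v).1 := by
      by_contra hne
      exact (Set.disjoint_left.mp (a2 _ _ hne)) h1 h3
    have e2 : (finProdFinEquiv.symm u).2 = (finProdFinEquiv.symm v).2 := by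
      by_contra hne
      exact (Set.disjoint_left.mp (b2 _ _ hne)) h2 h4
    exact huv (finProdFinEquiv.symm.injective (Prod.ext e1 e2))
  · have hne : (finProdFinEquiv.symm u).1 ≠ (finProdFinEquiv.symm v).1 ∨
        (finProdFinEquiv.symm u).2 ≠ (finProdFinEquiv.symm v).2 := by
      by_contra hcon
      push Not at hcon
      exact huv (finProdFinEquiv.symm.injective (Prod.ext hcon.1 hcon.2))
    have p1 : ∃ x ∈ A (finProdFinEquiv.symm u).1, ∃ x' ∈ A (finProdFinEquiv.symm v).1,
        (x = x' ∨ G.Adj x x') ∧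
        ((finProdFinEquiv.symm u).1 ≠ (finProdFinEquiv.symm v).1 → x ≠ x') := by
      by_cases h : (finProdFinEquiv.symm u).1 = (finProdFinEquiv.symm v).1
      · obtain ⟨x⟩ := (a1 (finProdFinEquiv.symm u).1).nonempty
        exact ⟨x.1, x.2, x.1, h ▸ x.2, Or.inl rfl, fun h' => absurd h h'⟩
      · obtain ⟨x, hx, x', hx', hadj⟩ := a3 _ _ h
        exact ⟨x, hx, x', hx', Or.inr hadj, fun _ => hadj.ne⟩
    have p2 : ∃ y ∈ B (finProdFinEquiv.symm u).2, ∃ y' ∈ B (finProdFinEquiv.symm v).2,
        (y = y' ∨ H.Adj y y') ∧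
        ((finProdFinEquiv.symm u).2 ≠ (finProdFinEquiv.symm v).2 → y ≠ y') := by
      by_cases h : (finProdFinEquiv.symm u).2 = (finProdFinEquiv.symm v).2
      · obtain ⟨x⟩ := (b1 (finProdFinEquiv.symm u).2).nonempty
        exact ⟨x.1, x.2, x.1, h ▸ x.2, Or.inl rfl, fun h' => absurd h h'⟩
      · obtain ⟨x, hx, x', hx', hadj⟩ := b3 _ _ h
        exact ⟨x, hx, x', hx', Or.inr hadj, fun _ => hadj.ne⟩
    obtain ⟨x, hx, x', hx', h1, h2⟩ := p1
    obtain ⟨y, hy, y', hy', h3, h4⟩ := p2
    refine ⟨(x, y), ⟨hx, hy⟩, (x', y'), ⟨hx', hy'⟩, fun he => ?_, h1, h3⟩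
    rcases hne with h | h
    · exact h2 h (congrArg Prod.fst he)
    · exact h4 h (congrArg Prod.snd he)

theorem strong_le_lexi (G : SimpleGraph V) (H : SimpleGraph W) : strong G H ≤ lexi G H := by
  rintro p q ⟨h1, h2, h3⟩
  rcases h2 with h2 | h2
  · rcases h3 with h3 | h3
    · exact absurd (Prod.ext h2 h3) h1
    · exact Or.inr ⟨h2, h3⟩
  · exact Or.inl h2

theorem color_lexi (G : SimpleGraph V) (H : SimpleGraph W) {a b : ℕ} (hG : G.Colorable a)
    (hH : H.Colorable b) : (lexi G H).Colorable (a * b) := by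
  obtain ⟨c⟩ := hG
  obtain ⟨d⟩ := hH
  have : (lexi G H).Coloring (Fin a × Fin b) :=
    SimpleGraph.Coloring.mk (fun p => (c p.1, d p.2)) (by
      rintro p q (h | ⟨h1, h2⟩) he
      · exact c.valid h (congrArg Prod.fst he)
      · exact d.valid h2 (congrArg Prod.snd he))
  have h2 := this.colorable
  simpa [Fintype.card_prod] using h2

/-- the minimal number of colours, with the corresponding complete minor -/
theorem exists_num (G : SimpleGraph V) [Finite V] (hG : Hadwiger G) :
    ∃ a : ℕ, G.Colorable a ∧ HasMinor G a := by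
  classical
  haveI := Fintype.ofFinite V
  have hex : ∃ a, G.Colorable a := ⟨_, G.colorable_of_fintype⟩
  refine ⟨Nat.find hex, Nat.find_spec hex, ?_⟩
  rcases Nat.eq_zero_or_pos (Nat.find hex) with h | h
  · rw [h]
    exact ⟨fun i => i.elim0, fun i => i.elim0, fun i => i.elim0, fun i => i.elim0⟩
  · have h1 : ¬ G.Colorable (Nat.find hex - 1) := Nat.find_min hex (by omega)
    have h2 := hG _ h1
    rwa [Nat.sub_add_cancel h] at h2

/-- products -/
theorem hadwiger_prod [Finite V] [Finite W] (G : SimpleGraph V) (H : SimpleGraph W)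
    (K : SimpleGraph (V × W)) (h1 : strong G H ≤ K) (h2 : K ≤ lexi G H) (hG : Hadwiger G)
    (hH : Hadwiger H) : Hadwiger K := by
  obtain ⟨a, ha, ha'⟩ := exists_num G hG
  obtain ⟨b, hb, hb'⟩ := exists_num H hH
  intro k hk
  have h3 : K.Colorable (a * b) := (color_lexi G H ha hb).mono_left h2
  have h4 : k < a * b := by
    by_contra hcon
    push Not at hcon
    exact hk (h3.mono hcon)
  exact minor_anti h4 (minor_mono h1 (minor_strong G H ha' hb'))

/-- images of connected sets under homomorphisms -/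
theorem conn_image {V' : Type} (G : SimpleGraph V) (G' : SimpleGraph V') (f : V → V')
    (hf : ∀ x y, G.Adj x y → G'.Adj (f x) (f y)) (A : Set V) (hA : (G.induce A).Connected) :
    (G'.induce (f '' A)).Connected := by
  let φ : (G.induce A) →g (G'.induce (f '' A)) :=
    { toFun := fun x => ⟨f x.1, x.1, x.2, rfl⟩
      map_rel' := by
        intro x y hxy
        exact hf x.1 y.1 hxy }
  obtain ⟨a0⟩ := hA.nonempty
  haveI : Nonempty ↥(f '' A) := ⟨⟨f a0.1, a0.1, a0.2, rfl⟩⟩
  refine SimpleGraph.Connected.mk ?_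
  rintro ⟨_, x, hx, rfl⟩ ⟨_, y, hy, rfl⟩
  exact (hA.preconnected ⟨x, hx⟩ ⟨y, hy⟩).map φ

theorem minor_join (G : SimpleGraph V) (H : SimpleGraph W) {s t : ℕ} (hG : HasMinor G s)
    (hH : HasMinor H t) : HasMinor (joinG G H) (s + t) := by
  obtain ⟨A, a1, a2, a3⟩ := hG
  obtain ⟨B, b1, b2, b3⟩ := hH
  let F : Fin s ⊕ Fin t → Set (V ⊕ W) := fun u => match u with
    | Sum.inl i => Sum.inl '' A i
    | Sum.inr j => Sum.inr '' B j
  have f1 : ∀ u, ((joinG G H).induce (F u)).Connected := by
    rintro (i | j)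
    · exact conn_image G (joinG G H) Sum.inl (fun _ _ h => h) _ (a1 i)
    · exact conn_image H (joinG G H) Sum.inr (fun _ _ h => h) _ (b1 j)
  have f2 : ∀ u v, u ≠ v → Disjoint (F u) (F v) := by
    rintro (i | i) (j | j) huv
    · have : i ≠ j := fun h => huv (by rw [h])
      exact (Set.disjoint_image_iff Sum.inl_injective).mpr (a2 i j this)
    · rw [Set.disjoint_left]
      rintro _ ⟨x, -, rfl⟩ ⟨y, -, hy⟩
      exact Sum.inr_ne_inl hy
    · rw [Set.disjoint_left]
      rintro _ ⟨x, -, rfl⟩ ⟨y, -, hy⟩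
      exact Sum.inl_ne_inr hy
    · have : i ≠ j := fun h => huv (by rw [h])
      exact (Set.disjoint_image_iff Sum.inr_injective).mpr (b2 i j this)
  have f3 : ∀ u v, u ≠ v → ∃ x ∈ F u, ∃ y ∈ F v, (joinG G H).Adj x y := by
    rintro (i | i) (j | j) huv
    · obtain ⟨x, hx, y, hy, h⟩ := a3 i j (fun h => huv (by rw [h]))
      exact ⟨_, ⟨x, hx, rfl⟩, _, ⟨y, hy, rfl⟩, h⟩
    · obtain ⟨x⟩ := (a1 i).nonempty
      obtain ⟨y⟩ := (b1 j).nonempty
      exact ⟨_, ⟨x.1, x.2, rfl⟩, _, ⟨y.1, y.2, rfl⟩, trivial⟩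
    · obtain ⟨x⟩ := (b1 i).nonempty
      obtain ⟨y⟩ := (a1 j).nonempty
      exact ⟨_, ⟨x.1, x.2, rfl⟩, _, ⟨y.1, y.2, rfl⟩, trivial⟩
    · obtain ⟨x, hx, y, hy, h⟩ := b3 i j (fun h => huv (by rw [h]))
      exact ⟨_, ⟨x, hx, rfl⟩, _, ⟨y, hy, rfl⟩, h⟩
  have hne : ∀ u v : Fin (s + t), u ≠ v → finSumFinEquiv.symm u ≠ finSumFinEquiv.symm v :=
    fun u v huv h => huv (finSumFinEquiv.symm.injective h)
  exact ⟨fun u => F (finSumFinEquiv.symm u), fun u => f1 _, fun u v huv => f2 _ _ (hne u v huv),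
    fun u v huv => f3 _ _ (hne u v huv)⟩

theorem color_join (G : SimpleGraph V) (H : SimpleGraph W) {a b : ℕ} (hG : G.Colorable a)
    (hH : H.Colorable b) : (joinG G H).Colorable (a + b) := by
  obtain ⟨c⟩ := hG
  obtain ⟨d⟩ := hH
  have : (joinG G H).Coloring (Fin a ⊕ Fin b) :=
    SimpleGraph.Coloring.mk (Sum.map c d) (by
      rintro (x | x) (y | y) h he
      · exact c.valid h (Sum.inl_injective he)
      · exact Sum.inl_ne_inr he
      · exact Sum.inr_ne_inl he
      · exact d.valid h (Sum.inr_injective he))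
  have h2 := this.colorable
  simpa [Fintype.card_sum] using h2

/-- joins -/
theorem hadwiger_join [Finite V] [Finite W] (G : SimpleGraph V) (H : SimpleGraph W)
    (hG : Hadwiger G) (hH : Hadwiger H) : Hadwiger (joinG G H) := by
  obtain ⟨a, ha, ha'⟩ := exists_num G hG
  obtain ⟨b, hb, hb'⟩ := exists_num H hH
  intro k hk
  have h4 : k < a + b := by
    by_contra hcon
    push Not at hcon
    exact hk ((color_join G H ha hb).mono hcon)
  exact minor_anti h4 (minor_join G H ha' hb')

/-- the apex and the copies -/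
def apexSet (V : Type) : Set (Option (V ⊕ V)) := {p | p = none ∨ ∃ v, p = some (Sum.inr v)}

theorem apex_conn (G : SimpleGraph V) : ((myc G).induce (apexSet V)).Connected := by
  have h0 : (none : Option (V ⊕ V)) ∈ apexSet V := Or.inl rfl
  haveI : Nonempty ↥(apexSet V) := ⟨⟨none, h0⟩⟩
  have h1 : ∀ p : ↥(apexSet V), ((myc G).induce (apexSet V)).Reachable ⟨none, h0⟩ p := by
    rintro ⟨p, hp⟩
    rcases hp with rfl | ⟨v, rfl⟩
    · exact SimpleGraph.Reachable.refl _
    · refine SimpleGraph.Adj.reachable ?_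
      show (myc G).Adj none (some (Sum.inr v))
      trivial
  refine SimpleGraph.Connected.mk fun p q => (h1 p).symm.trans (h1 q)

theorem minor_myc (G : SimpleGraph V) {a : ℕ} (ha : 2 ≤ a) (hG : HasMinor G a) :
    HasMinor (myc G) (a + 1) := by
  obtain ⟨A, a1, a2, a3⟩ := hG
  let F : Option (Fin a) → Set (Option (V ⊕ V)) := fun u => match u with
    | some i => (fun v => some (Sum.inl v)) '' A i
    | none => apexSet V
  have hinj : Function.Injective (fun v : V => (some (Sum.inl v) : Option (V ⊕ V))) :=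
    fun x y h => Sum.inl_injective (Option.some_injective _ h)
  have f1 : ∀ u, ((myc G).induce (F u)).Connected := by
    rintro (_ | i)
    · exact apex_conn G
    · exact conn_image G (myc G) (fun v => some (Sum.inl v)) (fun _ _ h => h) _ (a1 i)
  have hdis : ∀ i : Fin a, Disjoint (F (some i)) (F none) := by
    intro i
    rw [Set.disjoint_left]
    rintro _ ⟨x, -, rfl⟩ hy
    rcases hy with h | ⟨v, h⟩
    · exact Option.some_ne_none _ h
    · exact Sum.inl_ne_inr (Option.some_injective _ h)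
  have f2 : ∀ u v, u ≠ v → Disjoint (F u) (F v) := by
    rintro (_ | i) (_ | j) huv
    · exact absurd rfl huv
    · exact (hdis j).symm
    · exact hdis i
    · exact (Set.disjoint_image_iff hinj).mpr (a2 i j fun h => huv (by rw [h]))
  have hadj : ∀ i : Fin a, ∃ x ∈ F (some i), ∃ y ∈ F none, (myc G).Adj x y := by
    intro i
    obtain ⟨j, hj⟩ : ∃ j : Fin a, i ≠ j := by
      haveI : Nontrivial (Fin a) := Fin.nontrivial_iff_two_le.mpr ha
      obtain ⟨j, hj⟩ := exists_ne i
      exact ⟨j, hj.symm⟩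
    obtain ⟨x, hx, y, -, hxy⟩ := a3 i j hj
    exact ⟨_, ⟨x, hx, rfl⟩, some (Sum.inr y), Or.inr ⟨y, rfl⟩, hxy⟩
  have f3 : ∀ u v, u ≠ v → ∃ x ∈ F u, ∃ y ∈ F v, (myc G).Adj x y := by
    rintro (_ | i) (_ | j) huv
    · exact absurd rfl huv
    · obtain ⟨x, hx, y, hy, h⟩ := hadj j
      exact ⟨y, hy, x, hx, h.symm⟩
    · exact hadj i
    · obtain ⟨x, hx, y, hy, h⟩ := a3 i j (fun h => huv (by rw [h]))
      exact ⟨_, ⟨x, hx, rfl⟩, _, ⟨y, hy, rfl⟩, h⟩
  have hne : ∀ u v : Fin (a + 1), u ≠ v → finSuccEquiv a u ≠ finSuccEquiv a v :=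
    fun u v huv h => huv ((finSuccEquiv a).injective h)
  exact ⟨fun u => F (finSuccEquiv a u), fun u => f1 _, fun u v huv => f2 _ _ (hne u v huv),
    fun u v huv => f3 _ _ (hne u v huv)⟩

theorem color_myc (G : SimpleGraph V) {a : ℕ} (hG : G.Colorable a) :
    (myc G).Colorable (a + 1) := by
  obtain ⟨c⟩ := hG
  have : (myc G).Coloring (Option (Fin a)) :=
    SimpleGraph.Coloring.mk (fun p => match p with
      | none => none
      | some (Sum.inl v) => some (c v)
      | some (Sum.inr v) => some (c v)) (by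
      rintro (_ | x | x) (_ | y | y) h he
      · exact h
      · exact h
      · exact Option.some_ne_none _ he.symm
      · exact h
      · exact c.valid h (Option.some_injective _ he)
      · exact c.valid h (Option.some_injective _ he)
      · exact Option.some_ne_none _ he
      · exact c.valid h (Option.some_injective _ he)
      · exact h)
  have h2 := this.colorable
  simpa [Fintype.card_option] using h2

/-- Mycielskians -/
theorem hadwiger_myc [Finite V] (G : SimpleGraph V) (hG : Hadwiger G) : Hadwiger (myc G) := by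
  obtain ⟨a, ha, ha'⟩ := exists_num G hG
  intro k hk
  have h4 : k < a + 1 := by
    by_contra hcon
    push Not at hcon
    exact hk ((color_myc G ha).mono hcon)
  rcases lt_or_ge a 2 with h | h
  · -- at most one colour: the minor has at most two vertices
    rcases Nat.lt_or_ge k 1 with hk0 | hk1
    · have : k = 0 := by omega
      subst this
      refine ⟨fun _ => apexSet V, fun _ => apex_conn G, fun i j hij => ?_, fun i j hij => ?_⟩
      · exact absurd (Fin.ext (by omega)) hij
      · exact absurd (Fin.ext (by omega)) hij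
    · have hk1' : k = 1 := by omega
      have ha1 : a = 1 := by omega
      subst hk1'
      subst ha1
      obtain ⟨A, a1, -, -⟩ := ha'
      obtain ⟨x⟩ := (a1 0).nonempty
      have hsing : ∀ p : Option (V ⊕ V), ((myc G).induce {p}).Connected := by
        intro p
        haveI : Nonempty ↥({p} : Set (Option (V ⊕ V))) := ⟨⟨p, rfl⟩⟩
        refine SimpleGraph.Connected.mk ?_
        rintro ⟨_, rfl⟩ ⟨_, rfl⟩
        exact SimpleGraph.Reachable.refl _
      let F : Fin 2 → Option (V ⊕ V) := ![none, some (Sum.inr x.1)]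
      refine ⟨fun i => {F i}, fun i => hsing _, fun i j hij => ?_, fun i j hij => ?_⟩
      · rw [Set.disjoint_singleton]
        fin_cases i <;> fin_cases j
        · exact absurd rfl hij
        · exact (Option.some_ne_none _).symm
        · exact Option.some_ne_none _
        · exact absurd rfl hij
      · refine ⟨F i, rfl, F j, rfl, ?_⟩
        fin_cases i <;> fin_cases j
        · exact absurd rfl hij
        · trivial
        · trivial
        · exact absurd rfl hij
  · exact minor_anti h4 (minor_myc G h ha')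

end

end Vale.Agent.P060
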